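import Vale.Agent.P301.H85.BeauPoly
import Vale.Agent.P301.H85.SC.Closed
import Vale.Agent.P272.K.INT.Gronwall
import Vale.Agent.P299.H835.Final

/-!
# P301, package BEAU-J: the square norm of a holomorphic form depends only on the Kähler class
-/

open scoped Manifold ContDiff ComplexOrder Topology Matrix
open Set Filter Metric
open Vale.Agent.P272.K Vale.Agent.P272.K.C2 Vale.Agent.P299.IX Vale.Agent.P299.IX.Fock

set_option linter.unusedSectionVars false

noncomputable section

namespace Vale.Agent.P301.H85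

variable {d : ℕ}

theorem hp_zero_eq (w : Cm d → Matrix (Fin d) (Fin d) ℂ) (z : Cm d) (u v : FI d → ℂ) :
    hp 0 w z u v = hA (w z) u v := by
  simp only [hp, rho, hA, Ld, zero_add, pow_one]

variable {X : Type} [TopologicalSpace X] [ChartedSpace (Cm d) X] {p : ℕ} {g : Frm d X}
  [T2Space X] [CompactSpace X] [IsManifold 𝓘(ℂ, Cm d) ω X]
  {w : Chart d X → Cm d → Matrix (Fin d) (Fin d) ℂ} {u : X → ℝ}

/-- `u g` -/
def uG (u : X → ℝ) (g : Frm d X) : Frm d X := fun e z => ((u (e.symm z) : ℝ) : ℂ) • g e z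

omit [T2Space X] [CompactSpace X] in
theorem isSec_uG (hg : IsHolF p g) (hu : SmoothFn (n := d) u) : IsSec 0 (uG u g) :=
  IsSec.smul (χ := fun x => ((u x : ℝ) : ℂ)) (G.SmoothFn.smC hu) hg.isSec

/-- `D' (u g) = Σ ∂_l u ε_l g` near a point -/
theorem IsHolF.dp_uG (hw : IsKahler w) (hg : IsHolF p g) (hu : SmoothFn (n := d) u)
    {e : Chart d X} {x : X} (hx : At e x) :
    DpX 0 w (uG u g) e =ᶠ[𝓝 (e x)]
      fun z => ∑ l, dz l (fun y => ((u (e.symm y) : ℝ) : ℂ)) z • (eps l *ᵥ g e z) := by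
  filter_upwards [eventually_at hx] with z hz
  show Dp 0 (w e) (uG u g e) z = _
  rw [Dp_zero_eq]
  have hu1 : ContDiffAt ℝ 1 (fun y => ((u (e.symm y) : ℝ) : ℂ)) z := by
    have := hu e _ hz.1
    rw [hz.2] at this
    exact (contDiffAt_ofReal this).of_le (by norm_cast)
  have hg1 : VC 1 (g e) z := by
    have := hg.isSec.smooth e _ hz.1
    rw [hz.2] at this
    exact this.mono (by norm_cast)
  have h1 : ∀ l, DV l (uG u g e) z = dz l (fun y => ((u (e.symm y) : ℝ) : ℂ)) z • g e z +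
      ((u (e.symm z) : ℝ) : ℂ) • DV l (g e) z := fun l => DV_smul hu1 hg1
  simp only [h1, Matrix.mulVec_add, Matrix.mulVec_smul, Finset.sum_add_distrib]
  rw [← Finset.smul_sum]
  have h2 := hg.dp_zero hw hz.1
  rw [hz.2] at h2
  rw [h2, smul_zero, add_zero]

/-- `δ D' (u g) = - Q_u g` -/
theorem IsHolF.de_dp_uG (hw : IsKahler w) (hg : IsHolF p g) (hu : SmoothFn (n := d) u)
    {e : Chart d X} {x : X} (hx : At e x) :
    DeX w (DpX 0 w (uG u g)) e (e x) =
      -QA (cHess (fun y => u (e.symm y)) (e x)) (w e (e x)) (g e (e x)) := by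
  have hsm : ContDiffAt ℝ ∞ (fun y => ((u (e.symm y) : ℝ) : ℂ)) (e x) :=
    contDiffAt_ofReal (hu e x hx)
  have hg1 : VC 1 (g e) (e x) := (hg.isSec.smooth e x hx).mono (by norm_cast)
  have hd1 : ∀ l, ContDiffAt ℝ 1 (dz l (fun y => ((u (e.symm y) : ℝ) : ℂ))) (e x) := fun l =>
    C2.contDiffAt_dz l (hsm.of_le (m := 2) (by norm_cast)) (by norm_num)
  show De (w e) (DpX 0 w (uG u g) e) (e x) = _
  rw [G.De_congr (hg.dp_uG hw hu hx), De]
  congr 1
  have h1 : ∀ b, DVb b (fun z => ∑ l, dz l (fun y => ((u (e.symm y) : ℝ) : ℂ)) z •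
      (eps l *ᵥ g e z)) (e x) =
      ∑ l, cHess (fun y => u (e.symm y)) (e x) l b • (eps l *ᵥ g e (e x)) := by
    intro b
    rw [DVb_sum _ fun l _ => VC.smul (hd1 l) (VC_constMul _ hg1)]
    refine Finset.sum_congr rfl fun l _ => ?_
    rw [DVb_smul (hd1 l) (VC_constMul _ hg1), DVb_constMul _ hg1, hg.DVb_zero hx b,
      Matrix.mulVec_zero, smul_zero, add_zero]
    congr 1
    exact (C2.dz_dzb_comm l b (hsm.of_le (by norm_cast))).symm
  simp only [h1, QA, Matrix.mulVec_sum, Matrix.mulVec_smul]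
  rw [Finset.sum_comm]
  rfl

theorem IsHolF.ip_Q (hw : IsKahler w) (hg : IsHolF p g) (hu : SmoothFn (n := d) u) :
    INT.intX (fun e z => (hA (w e z)
      (QA (cHess (fun y => u (e.symm y)) z) (w e z) (g e z)) (g e z)).re) = 0 := by
  have hs := isSec_uG hg hu
  have hs1 : IsSec 0 (DpX 0 w (uG u g)) := hs.dp hw
  have h1 : ipX 0 w g (DeX w (DpX 0 w (uG u g))) = 0 := by
    rw [← ipX_dp hw hg.isSec hs1]
    rw [ipX_eq, ← G.ipL_zero_left (L := hlbK 0 w) (w := w) (DpX 0 w (uG u g))]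
    refine G.ipL_congr (fun e x hx => ?_) fun _ _ _ => rfl
    show Dp 0 (w e) (g e) (e x) = 0
    rw [Dp_zero_eq]
    exact hg.dp_zero hw hx
  have h2 : ipX 0 w (DeX w (DpX 0 w (uG u g))) g = 0 := by
    rw [← ipX_conj hw, h1, map_zero]
  have h3 : INT.intX (fun e z => (hpX 0 w (DeX w (DpX 0 w (uG u g))) g e z).re) = 0 := by
    have := congrArg Complex.re h2
    simpa [ipX] using this
  have h4 : INT.intX (fun e z => (hpX 0 w (DeX w (DpX 0 w (uG u g))) g e z).re) =
      INT.intX (fun e z => (-1 : ℝ) * (hA (w e z)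
      (QA (cHess (fun y => u (e.symm y)) z) (w e z) (g e z)) (g e z)).re) := by
    refine INT.intX_congr fun e x hx => ?_
    show (hp 0 (w e) (e x) (DeX w (DpX 0 w (uG u g)) e (e x)) (g e (e x))).re = _
    rw [hg.de_dp_uG hw hu hx, hp_neg_left, hp_zero_eq, Complex.neg_re, neg_one_mul]
  rw [h4, INT.intX_const_mul] at h3
  linarith

/-- **the square norm of a holomorphic form depends only on the Kähler class** -/
theorem JINV (hg : IsHolF p g) (hw : IsKahler w) (hu : SmoothFn (n := d) u)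
    (hw' : IsKahler (addH w u)) :
    INT.intX (fun e z => (hp 0 (addH w u e) z (g e z) (g e z)).re) =
      INT.intX (fun e z => (hp 0 (w e) z (g e z) (g e z)).re) := by
  set m : ℕ := d + 1 with hm
  have hm0 : (0 : ℝ) < m := by rw [hm]; positivity
  set v : X → ℝ := fun x => (m : ℝ)⁻¹ * u x with hv
  have hvs : SmoothFn (n := d) v := fun e x hx => contDiffAt_const.mul (hu e x hx)
  -- the path
  set W : ℝ → Chart d X → Cm d → Matrix (Fin d) (Fin d) ℂ := fun t => addH w fun x => t * v x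
    with hW
  have hWe : ∀ t e x, At e x → W t e (e x) = w e (e x) +
      (t : ℂ) • cHess (fun y => v (e.symm y)) (e x) := by
    intro t e x hx
    have d2 : ContDiffAt ℝ 2 (fun y => v (e.symm y)) (e x) := (hvs e x hx).of_le (by norm_cast)
    show w e (e x) + cHess (fun y => t * v (e.symm y)) (e x) = _
    rw [C2.cHess_const_mul t d2]
  have hve : ∀ (e : Chart d X) (x : X), At e x → cHess (fun y => v (e.symm y)) (e x) =
      (((m : ℝ)⁻¹ : ℝ) : ℂ) • cHess (fun y => u (e.symm y)) (e x) := by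
    intro e x hx
    have d2 : ContDiffAt ℝ 2 (fun y => u (e.symm y)) (e x) := (hu e x hx).of_le (by norm_cast)
    exact C2.cHess_const_mul (m : ℝ)⁻¹ d2
  have hWpos : ∀ t : ℝ, 0 ≤ t → t ≤ m → ∀ e x, At e x → (W t e (e x)).PosDef := by
    intro t ht0 ht1 e x hx
    have h1 : W t e (e x) = ((1 - t / m : ℝ) : ℂ) • w e (e x) +
        ((t / m : ℝ) : ℂ) • addH w u e (e x) := by
      rw [hWe t e x hx, hve e x hx, smul_smul, ← Complex.ofReal_mul]
      show _ = _ + ((t / m : ℝ) : ℂ) • (w e (e x) + cHess (fun y => u (e.symm y)) (e x))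
      rw [smul_add, ← add_assoc, ← add_smul, ← Complex.ofReal_add, sub_add_cancel,
        Complex.ofReal_one, one_smul, div_eq_mul_inv]
    have h2 : t / m ≤ 1 := (div_le_one hm0).2 ht1
    have h3 : 0 ≤ t / m := by positivity
    rw [h1]
    rcases eq_or_lt_of_le h2 with h4 | h4
    · rw [h4, sub_self, Complex.ofReal_zero, zero_smul, zero_add, Complex.ofReal_one, one_smul]
      exact hw'.posDef e x hx
    · refine Matrix.PosDef.add_posSemidef ((hw.posDef e x hx).smul ?_)
        ((hw'.posDef e x hx).posSemidef.smul ?_)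
      · exact_mod_cast sub_pos.2 h4
      · exact_mod_cast h3
  have hWK : ∀ t : ℝ, 0 ≤ t → t ≤ m → IsKahler (W t) := fun t h0 h1 =>
    P299.H835.isKahler_addH hw (fun e x hx => contDiffAt_const.mul (hvs e x hx))
      (hWpos t h0 h1)
  -- the densities
  set D : ℝ → Chart d X → Cm d → ℝ := fun t e z => ∑ j : Fin (m + 1), INT.lag m j t *
    (hpX 0 (W (j : ℝ)) g g e z).re with hD
  have hj : ∀ j : Fin (m + 1), (0 : ℝ) ≤ (j : ℝ) ∧ (j : ℝ) ≤ m := fun j =>
    ⟨by positivity, by exact_mod_cast Nat.lt_succ_iff.1 j.2⟩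
  have hdens : ∀ t : ℝ, 0 ≤ t → t ≤ m → INT.IsDensity fun e z => (hpX 0 (W t) g g e z).re := by
    intro t h0 h1
    have hK := hWK t h0 h1
    have hs := (isSec_iff (w := W t)).1 hg.isSec
    rw [hpX_eq]
    exact (G.dens_hpL hK (isHLB_K 0 hK) hs hs).re
  have hDd : ∀ t, INT.IsDensity (D t) := fun t =>
    INT.IsDensity.sum _ fun j _ => (hdens j (hj j).1 (hj j).2).const_mul _
  have hpoly : ∀ e x, At e x → ∃ f : ℝ → ℝ, INT.IsPolyN m f ∧ (∀ t, D t e (e x) = f t) ∧
      ∀ t : ℝ, 0 ≤ t → t ≤ m → (hA (W t e (e x)) (g e (e x)) (g e (e x))).re = f t ∧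
        (hA (W t e (e x)) (QA (cHess (fun y => v (e.symm y)) (e x)) (W t e (e x)) (g e (e x)))
          (g e (e x))).re = deriv f t := by
    intro e x hx
    have hher : (cHess (fun y => v (e.symm y)) (e x)).IsHermitian :=
      C2.cHess_isHermitian ((hvs e x hx).of_le (by norm_cast))
    obtain ⟨f, hf, hft⟩ := exists_poly (hw.posDef e x hx) hher (g e (e x)) (m := m) (by omega)
    have h1 : ∀ t : ℝ, 0 ≤ t → t ≤ m → (hA (W t e (e x)) (g e (e x)) (g e (e x))).re = f t ∧
        (hA (W t e (e x)) (QA (cHess (fun y => v (e.symm y)) (e x)) (W t e (e x)) (g e (e x)))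
          (g e (e x))).re = deriv f t := by
      intro t h0 h1
      have h2 := hWpos t h0 h1 e x hx
      rw [hWe t e x hx] at h2 ⊢
      exact hft t h2
    refine ⟨f, hf, fun t => ?_, h1⟩
    rw [hf.eq_sum t]
    refine Finset.sum_congr rfl fun j _ => ?_
    rw [← (h1 j (hj j).1 (hj j).2).1]
    show _ * (hp 0 (W j e) (e x) (g e (e x)) (g e (e x))).re = _
    rw [hp_zero_eq]
  have hder : ∀ t : ℝ, 0 ≤ t → t ≤ m → HasDerivAt (fun t => INT.intX (D t)) 0 t := by
    intro t h0 h1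
    have h2 := INT.hasDerivAt_intX (m := m) hDd (fun e x hx => by
      obtain ⟨f, hf, hft, -⟩ := hpoly e x hx
      rwa [show (fun t => D t e (e x)) = f from funext hft]) t
    have h3 : INT.intX (fun e z => deriv (fun s => D s e z) t) =
        INT.intX (fun e z => (hA (W t e z)
          (QA (cHess (fun y => v (e.symm y)) z) (W t e z) (g e z)) (g e z)).re) := by
      refine INT.intX_congr fun e x hx => ?_
      obtain ⟨f, hf, hft, hfe⟩ := hpoly e x hx
      rw [show (fun t => D t e (e x)) = f from funext hft, (hfe t h0 h1).2]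
    rw [h3, hg.ip_Q (hWK t h0 h1) hvs] at h2
    exact h2
  have hval : ∀ t : ℝ, 0 ≤ t → t ≤ m → INT.intX (D t) =
      INT.intX (fun e z => (hp 0 (W t e) z (g e z) (g e z)).re) := by
    intro t h0 h1
    refine INT.intX_congr fun e x hx => ?_
    obtain ⟨f, hf, hft, hfe⟩ := hpoly e x hx
    rw [hft, ← (hfe t h0 h1).1, hp_zero_eq]
  have hconst : INT.intX (D m) = INT.intX (D 0) := by
    refine constant_of_has_deriv_right_zero (f := fun t => INT.intX (D t)) (a := 0) (b := m)
      (fun t ht => (hder t ht.1 ht.2).continuousAt.continuousWithinAt)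
      (fun t ht => (hder t ht.1 ht.2.le).hasDerivWithinAt) m ⟨hm0.le, le_rfl⟩
  rw [hval m hm0.le le_rfl, hval 0 le_rfl hm0.le] at hconst
  have e1 : INT.intX (fun e z => (hp 0 (addH w u e) z (g e z) (g e z)).re) =
      INT.intX (fun e z => (hp 0 (W m e) z (g e z) (g e z)).re) := by
    refine INT.intX_congr fun e x hx => ?_
    rw [hp_zero_eq, hp_zero_eq, hWe m e x hx, hve e x hx, smul_smul, ← Complex.ofReal_mul,
      mul_inv_cancel₀ hm0.ne', Complex.ofReal_one, one_smul]
    rfl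
  have e2 : INT.intX (fun e z => (hp 0 (w e) z (g e z) (g e z)).re) =
      INT.intX (fun e z => (hp 0 (W 0 e) z (g e z) (g e z)).re) := by
    refine INT.intX_congr fun e x hx => ?_
    rw [hp_zero_eq, hp_zero_eq, hWe 0 e x hx, Complex.ofReal_zero, zero_smul, add_zero]
  rw [e1, e2, hconst]

end Vale.Agent.P301.H85
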