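import Mathlib.LinearAlgebra.Matrix.Determinant.Basic
import Mathlib.LinearAlgebra.FiniteDimensional.Basic
import Mathlib.Analysis.Complex.Basic
import Mathlib.Algebra.Order.Chebyshev

/-!
# Minors of vectors which are close to a subspace of small dimension
-/

open Finset

noncomputable section

namespace Vale.Agent.P301.H85

variable {κ : Type*} [Fintype κ] {r : ℕ}

/-- squared norm -/
def nn (x : κ → ℂ) : ℝ := ∑ I, ‖x I‖ ^ 2

theorem nn_nonneg (x : κ → ℂ) : 0 ≤ nn x := Finset.sum_nonneg fun _ _ => by positivity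

theorem nn_smul (c : ℂ) (x : κ → ℂ) : nn (c • x) = ‖c‖ ^ 2 * nn x := by
  unfold nn
  rw [Finset.mul_sum]
  refine Finset.sum_congr rfl fun I _ => ?_
  rw [Pi.smul_apply, smul_eq_mul, norm_mul, mul_pow]

theorem eq_zero_of_nn {x : κ → ℂ} (h : nn x = 0) : x = 0 := by
  unfold nn at h
  rw [Finset.sum_eq_zero_iff_of_nonneg fun _ _ => by positivity] at h
  ext I
  have := h I (mem_univ I)
  simpa using this

theorem cs (x m : κ → ℂ) : ‖∑ I, x I * m I‖ ≤ √(nn x) * √(nn m) := by
  refine (norm_sum_le _ _).trans ?_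
  simp only [norm_mul]
  exact Real.sum_mul_le_sqrt_mul_sqrt Finset.univ (fun I => ‖x I‖) fun I => ‖m I‖

/-- `nn` of a sum -/
theorem nn_sum_le (x : Fin r → κ → ℂ) : nn (∑ i, x i) ≤ r * ∑ i, nn (x i) := by
  unfold nn
  rw [Finset.sum_comm, Finset.mul_sum]
  refine Finset.sum_le_sum fun I _ => ?_
  rw [Finset.sum_apply]
  have h1 : ‖∑ i, x i I‖ ≤ ∑ i, ‖x i I‖ := norm_sum_le _ _
  have h2 : (∑ i, ‖x i I‖) ^ 2 ≤ (r : ℝ) * ∑ i, ‖x i I‖ ^ 2 := by
    have := sq_sum_le_card_mul_sum_sq (s := (univ : Finset (Fin r))) (f := fun i => ‖x i I‖)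
    simpa using this
  exact (pow_le_pow_left₀ (norm_nonneg _) h1 2).trans h2

/-- crude determinant bound -/
theorem det_le (x m : Fin r → κ → ℂ) :
    ‖(Matrix.of fun i k => ∑ I, x i I * m k I).det‖ ≤
      (Nat.factorial r : ℝ) * ((∏ i, √(nn (x i))) * ∏ k, √(nn (m k))) := by
  rw [Matrix.det_apply]
  refine (norm_sum_le _ _).trans ?_
  have h1 : ∀ σ ∈ (univ : Finset (Equiv.Perm (Fin r))),
      ‖Equiv.Perm.sign σ • ∏ i, (Matrix.of fun i k => ∑ I, x i I * m k I) (σ i) i‖
        ≤ (∏ i, √(nn (x i))) * ∏ k, √(nn (m k)) := by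
    intro σ _
    have e1 : ‖Equiv.Perm.sign σ • ∏ i, (Matrix.of fun i k => ∑ I, x i I * m k I) (σ i) i‖
        = ∏ i, ‖∑ I, x (σ i) I * m i I‖ := by
      rw [Units.smul_def, ← Int.cast_smul_eq_zsmul ℂ, smul_eq_mul, norm_mul, norm_prod]
      rcases Int.units_eq_one_or (Equiv.Perm.sign σ) with h | h <;> simp [h]
    rw [e1]
    calc ∏ i, ‖∑ I, x (σ i) I * m i I‖ ≤ ∏ i, (√(nn (x (σ i))) * √(nn (m i))) :=
          Finset.prod_le_prod (fun _ _ => norm_nonneg _) fun i _ => cs _ _
      _ = (∏ i, √(nn (x (σ i)))) * ∏ i, √(nn (m i)) := Finset.prod_mul_distrib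
      _ = _ := by
          congr 1
          exact Equiv.prod_comp σ fun i => √(nn (x i))
  refine (Finset.sum_le_card_nsmul _ _ _ h1).trans ?_
  rw [nsmul_eq_mul, Finset.card_univ, Fintype.card_perm, Fintype.card_fin]

/-- a nontrivial relation on a small set of coordinates -/
theorem exists_rel (B : Finset κ) (hB : B.card < r) (b : Fin r → κ → ℂ) :
    ∃ c : Fin r → ℂ, c ≠ 0 ∧ ∀ I ∈ B, ∑ i, c i * b i I = 0 := by
  classical
  let L : (Fin r → ℂ) →ₗ[ℂ] (B → ℂ) :=
    { toFun := fun c I => ∑ i, c i * b i I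
      map_add' := fun c c' => by
        ext I
        simp [add_mul, Finset.sum_add_distrib]
      map_smul' := fun t c => by
        ext I
        simp [Finset.mul_sum, mul_assoc] }
  have h1 : LinearMap.ker L ≠ ⊥ := by
    intro h
    have h2 := LinearMap.finrank_le_finrank_of_injective (LinearMap.ker_eq_bot.1 h)
    simp only [Module.finrank_fintype_fun_eq_card, Fintype.card_fin, Fintype.card_coe] at h2
    omega
  obtain ⟨c, hc, hc0⟩ := (Submodule.ne_bot_iff _).1 h1
  refine ⟨c, hc0, fun I hI => ?_⟩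
  have := congrFun (LinearMap.mem_ker.1 hc) ⟨I, hI⟩
  exact this

/-- the part of `x` outside `B` -/
def off [DecidableEq κ] (B : Finset κ) (x : κ → ℂ) : κ → ℂ := fun I => if I ∈ B then 0 else x I

/-- **the bound** -/
theorem det_bound [DecidableEq κ] (B : Finset κ) (hB : B.card < r) (b m : Fin r → κ → ℂ) :
    ‖(Matrix.of fun i k => ∑ I, b i I * m k I).det‖ ^ 2 ≤
      ((Nat.factorial r : ℝ) ^ 2 * r) * (∏ k, nn (m k)) *
        ∑ i, nn (off B (b i)) * ∏ j ∈ univ.erase i, nn (b j) := by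
  have hRHS : 0 ≤ ((Nat.factorial r : ℝ) ^ 2 * r) * (∏ k, nn (m k)) *
        ∑ i, nn (off B (b i)) * ∏ j ∈ univ.erase i, nn (b j) := by
    refine mul_nonneg (mul_nonneg (by positivity) (Finset.prod_nonneg fun _ _ => nn_nonneg _)) ?_
    exact Finset.sum_nonneg fun i _ => mul_nonneg (nn_nonneg _)
      (Finset.prod_nonneg fun _ _ => nn_nonneg _)
  by_cases h0 : ∃ i, nn (b i) = 0
  · obtain ⟨i, hi⟩ := h0
    have h1 : (Matrix.of fun i k => ∑ I, b i I * m k I).det = 0 := by
      refine Matrix.det_eq_zero_of_row_eq_zero i fun k => ?_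
      simp [eq_zero_of_nn hi]
    rw [h1]
    simpa using hRHS
  push Not at h0
  have hN : ∀ i, 0 < nn (b i) := fun i => lt_of_le_of_ne (nn_nonneg _) (h0 i).symm
  obtain ⟨c, hc, hrel⟩ := exists_rel B hB b
  obtain ⟨i1, hi1⟩ : ∃ i, c i ≠ 0 := by
    by_contra hcon
    push Not at hcon
    exact hc (funext hcon)
  -- the maximal weighted coefficient
  obtain ⟨j, -, hj⟩ := Finset.exists_max_image (univ : Finset (Fin r))
    (fun i => ‖c i‖ ^ 2 * nn (b i)) ⟨i1, mem_univ _⟩
  have hcj : c j ≠ 0 := by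
    intro h
    have := hj i1 (mem_univ _)
    rw [h] at this
    have h2 : 0 < ‖c i1‖ ^ 2 * nn (b i1) := mul_pos (by positivity) (hN i1)
    simp only [norm_zero] at this
    nlinarith
  set v : κ → ℂ := ∑ i, c i • b i with hv
  set x : Fin r → κ → ℂ := Function.update b j v with hx
  have hdet : (Matrix.of fun i k => ∑ I, x i I * m k I).det
      = c j • (Matrix.of fun i k => ∑ I, b i I * m k I).det := by
    rw [← Matrix.det_updateRow_sum]
    congr 1
    ext i k
    by_cases hij : i = j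
    · subst hij
      rw [Matrix.updateRow_self]
      simp only [Matrix.of_apply, hx, Function.update_self, hv, Finset.sum_apply, Pi.smul_apply,
        smul_eq_mul, Finset.sum_mul, Finset.mul_sum]
      rw [Finset.sum_comm]
      refine Finset.sum_congr rfl fun a _ => ?_
      simp only [mul_assoc]
    · rw [Matrix.updateRow_ne hij]
      simp only [Matrix.of_apply, hx, Function.update_of_ne hij]
  have hvoff : v = ∑ i, c i • off B (b i) := by
    ext I
    simp only [hv, Finset.sum_apply, Pi.smul_apply, smul_eq_mul, off]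
    by_cases hI : I ∈ B
    · simp [hI, hrel I hI]
    · simp [hI]
  have hnv : nn v ≤ r * ∑ i, ‖c i‖ ^ 2 * nn (off B (b i)) := by
    rw [hvoff]
    refine (nn_sum_le _).trans (le_of_eq ?_)
    congr 1
    exact Finset.sum_congr rfl fun i _ => nn_smul _ _
  have hcj2 : 0 < ‖c j‖ ^ 2 := by positivity
  -- the determinant
  have hd := det_le x m
  rw [hdet, smul_eq_mul, norm_mul] at hd
  have hd2 := pow_le_pow_left₀ (by positivity) hd 2
  rw [mul_pow, mul_pow, mul_pow, ← Finset.prod_pow, ← Finset.prod_pow] at hd2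
  simp only [Real.sq_sqrt (nn_nonneg _)] at hd2
  have hpx : ∏ i, nn (x i) = nn v * ∏ i ∈ univ.erase j, nn (b i) := by
    rw [← Finset.mul_prod_erase _ _ (mem_univ j)]
    congr 1
    · simp [hx]
    · refine Finset.prod_congr rfl fun i hi => ?_
      simp only [hx]
      rw [Function.update_of_ne (Finset.ne_of_mem_erase hi)]
  have hPM : 0 ≤ ∏ k, nn (m k) := Finset.prod_nonneg fun _ _ => nn_nonneg _
  have hPj : 0 ≤ ∏ i ∈ univ.erase j, nn (b i) := Finset.prod_nonneg fun _ _ => nn_nonneg _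
  have key : nn v * ∏ i ∈ univ.erase j, nn (b i) ≤
      ‖c j‖ ^ 2 * (r * ∑ i, nn (off B (b i)) * ∏ k ∈ univ.erase i, nn (b k)) := by
    calc nn v * ∏ i ∈ univ.erase j, nn (b i)
        ≤ (r * ∑ i, ‖c i‖ ^ 2 * nn (off B (b i))) * ∏ i ∈ univ.erase j, nn (b i) :=
          mul_le_mul_of_nonneg_right hnv hPj
      _ = r * ∑ i, nn (off B (b i)) * (‖c i‖ ^ 2 * ∏ i ∈ univ.erase j, nn (b i)) := by
          rw [mul_assoc, Finset.sum_mul]
          congr 1
          exact Finset.sum_congr rfl fun i _ => by ring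
      _ ≤ r * ∑ i, nn (off B (b i)) * (‖c j‖ ^ 2 * ∏ k ∈ univ.erase i, nn (b k)) := by
          refine mul_le_mul_of_nonneg_left (Finset.sum_le_sum fun i _ => ?_) (by positivity)
          refine mul_le_mul_of_nonneg_left ?_ (nn_nonneg _)
          have e1 : (∏ k ∈ univ.erase j, nn (b k)) * nn (b j) = ∏ k, nn (b k) := by
            rw [mul_comm]
            exact Finset.mul_prod_erase _ (fun k => nn (b k)) (mem_univ j)
          have e2 : (∏ k ∈ univ.erase i, nn (b k)) * nn (b i) = ∏ k, nn (b k) := by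
            rw [mul_comm]
            exact Finset.mul_prod_erase _ (fun k => nn (b k)) (mem_univ i)
          have e3 := hj i (mem_univ i)
          have hP : 0 < ∏ k, nn (b k) := Finset.prod_pos fun k _ => hN k
          have e4 : ∏ k ∈ univ.erase j, nn (b k) = (∏ k, nn (b k)) / nn (b j) := by
            rw [← e1]
            field_simp [(hN j).ne']
          have e5 : ∏ k ∈ univ.erase i, nn (b k) = (∏ k, nn (b k)) / nn (b i) := by
            rw [← e2]
            field_simp [(hN i).ne']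
          rw [e4, e5, mul_div_assoc', mul_div_assoc', div_le_div_iff₀ (hN j) (hN i)]
          nlinarith
      _ = _ := by
          rw [Finset.mul_sum, Finset.mul_sum, Finset.mul_sum]
          exact Finset.sum_congr rfl fun i _ => by ring
  rw [hpx] at hd2
  have hfin : ‖c j‖ ^ 2 * ‖(Matrix.of fun i k => ∑ I, b i I * m k I).det‖ ^ 2 ≤
      ‖c j‖ ^ 2 * (((Nat.factorial r : ℝ) ^ 2 * r) * (∏ k, nn (m k)) *
        ∑ i, nn (off B (b i)) * ∏ j ∈ univ.erase i, nn (b j)) := by
    refine hd2.trans ?_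
    calc (Nat.factorial r : ℝ) ^ 2 * ((nn v * ∏ i ∈ univ.erase j, nn (b i)) * ∏ k, nn (m k))
        ≤ (Nat.factorial r : ℝ) ^ 2 * ((‖c j‖ ^ 2 * (r * ∑ i, nn (off B (b i)) *
            ∏ k ∈ univ.erase i, nn (b k))) * ∏ k, nn (m k)) :=
          mul_le_mul_of_nonneg_left (mul_le_mul_of_nonneg_right key hPM) (by positivity)
      _ = _ := by ring
  exact le_of_mul_le_mul_left hfin hcj2

end Vale.Agent.P301.H85
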