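import Vale.Agent.P299.H835.IX.Fock
import Vale.Agent.P272.K.QN.H327.Frame
import Vale.Agent.P301.H85.DetB
import Mathlib.Data.Fin.Tuple.Sort

/-!
# Package CY-PW: the curvature term `(Q_τ u, u)` and minors
-/

open scoped ComplexConjugate ComplexOrder Matrix
open Finset Vale.Agent.P299.IX Vale.Agent.P299.IX.Fock

noncomputable section

namespace Vale.Agent.P301.H85

variable {d : ℕ}

/-- Hermitian product of forms of type `(*,0)` in the metric `w` -/
def ipw (w : Matrix (Fin d) (Fin d) ℂ) (u v : FI d → ℂ) : ℂ :=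
  ∑ I, (lam w⁻¹ *ᵥ u) I * conj (v I)

/-- squared norm in the metric `w` -/
def nsw (w : Matrix (Fin d) (Fin d) ℂ) (u : FI d → ℂ) : ℝ := (ipw w u u).re

/-- `(Q_τ u, v)` -/
def qfw (w τ : Matrix (Fin d) (Fin d) ℂ) (u v : FI d → ℂ) : ℂ :=
  ∑ l, ∑ b, τ l b * ipw w (eps l *ᵥ u) (eps b *ᵥ v)

/-- standard product -/
def ip (u v : FI d → ℂ) : ℂ := ∑ I, u I * conj (v I)

theorem ip_conjTranspose (M : FM d) (u v : FI d → ℂ) : ip (Mᴴ *ᵥ u) v = ip u (M *ᵥ v) := by
  simp only [ip, Matrix.mulVec, dotProduct, Finset.sum_mul, map_sum, map_mul, Finset.mul_sum,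
    Matrix.conjTranspose_apply]
  rw [Finset.sum_comm]
  refine Finset.sum_congr rfl fun _ _ => Finset.sum_congr rfl fun _ _ => ?_
  rw [← starRingEnd_apply]
  ring

theorem ip_sum_left {ι : Type*} (s : Finset ι) (f : ι → FI d → ℂ) (v : FI d → ℂ) :
    ip (∑ i ∈ s, f i) v = ∑ i ∈ s, ip (f i) v := by
  simp only [ip, Finset.sum_apply, Finset.sum_mul]
  exact Finset.sum_comm

theorem ip_sum_right {ι : Type*} (s : Finset ι) (f : ι → FI d → ℂ) (v : FI d → ℂ) :
    ip v (∑ i ∈ s, f i) = ∑ i ∈ s, ip v (f i) := by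
  simp only [ip, Finset.sum_apply, map_sum, Finset.mul_sum]
  exact Finset.sum_comm

theorem ip_smul_left (c : ℂ) (u v : FI d → ℂ) : ip (c • u) v = c * ip u v := by
  simp [ip, Finset.mul_sum, mul_assoc]

theorem ip_smul_right (c : ℂ) (u v : FI d → ℂ) : ip u (c • v) = conj c * ip u v := by
  simp only [ip, Pi.smul_apply, smul_eq_mul, map_mul, Finset.mul_sum]
  exact Finset.sum_congr rfl fun _ _ => by ring

theorem ip_self (u : FI d → ℂ) : ip u u = (nn u : ℂ) := by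
  unfold ip nn
  push_cast
  refine Finset.sum_congr rfl fun I _ => ?_
  rw [Complex.mul_conj, Complex.normSq_eq_norm_sq]
  push_cast
  rfl

section frame

variable {w τ T U : Matrix (Fin d) (Fin d) ℂ} {η : Fin d → ℝ}

theorem inv_eq (hUT : U * T = 1) (hTU : T * U = 1) (hw : w = T * Tᴴ) : w⁻¹ = Uᴴ * U := by
  apply Matrix.inv_eq_right_inv
  rw [hw]
  calc T * Tᴴ * (Uᴴ * U) = T * (Tᴴ * Uᴴ) * U := by noncomm_ring
    _ = 1 := by rw [← Matrix.conjTranspose_mul, hUT, Matrix.conjTranspose_one, Matrix.mul_one, hTU]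

theorem ipw_eq (hUT : U * T = 1) (hTU : T * U = 1) (hw : w = T * Tᴴ) (u v : FI d → ℂ) :
    ipw w u v = ip (lam U *ᵥ u) (lam U *ᵥ v) := by
  unfold ipw
  rw [inv_eq hUT hTU hw, lam_mul, lam_conjTranspose, ← Matrix.mulVec_mulVec]
  exact ip_conjTranspose _ _ _

theorem lamU_eps (l : Fin d) (u : FI d → ℂ) :
    lam U *ᵥ (eps l *ᵥ u) = ∑ p, U p l • (eps p *ᵥ (lam U *ᵥ u)) := by
  rw [Matrix.mulVec_mulVec, lam_eps, ← Matrix.mulVec_mulVec, Matrix.sum_mulVec]
  exact Finset.sum_congr rfl fun p _ => Matrix.smul_mulVec _ _ _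

theorem qfw_eq (hUT : U * T = 1) (hTU : T * U = 1) (hw : w = T * Tᴴ)
    (hτ : τ = T * Matrix.diagonal (fun k => ((η k : ℝ) : ℂ)) * Tᴴ) (u v : FI d → ℂ) :
    qfw w τ u v = ∑ p, (η p : ℂ) * ip (eps p *ᵥ (lam U *ᵥ u)) (eps p *ᵥ (lam U *ᵥ v)) := by
  have hD : U * τ * Uᴴ = Matrix.diagonal (fun k => ((η k : ℝ) : ℂ)) := by
    rw [hτ]
    have h3 : Tᴴ * Uᴴ = 1 := by rw [← Matrix.conjTranspose_mul, hUT, Matrix.conjTranspose_one]
    calc U * (T * Matrix.diagonal (fun k => ((η k : ℝ) : ℂ)) * Tᴴ) * Uᴴ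
        = (U * T) * Matrix.diagonal (fun k => ((η k : ℝ) : ℂ)) * (Tᴴ * Uᴴ) := by noncomm_ring
      _ = _ := by rw [hUT, h3, Matrix.one_mul, Matrix.mul_one]
  unfold qfw
  set X : Fin d → Fin d → ℂ := fun p q =>
    ip (eps p *ᵥ (lam U *ᵥ u)) (eps q *ᵥ (lam U *ᵥ v)) with hX
  have h1 : ∀ l b, τ l b * ipw w (eps l *ᵥ u) (eps b *ᵥ v)
      = ∑ p, ∑ q, (U p l * τ l b * conj (U q b)) * X p q := by
    intro l b
    rw [ipw_eq hUT hTU hw, lamU_eps, lamU_eps, ip_sum_left, Finset.mul_sum]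
    refine Finset.sum_congr rfl fun p _ => ?_
    rw [ip_smul_left, ip_sum_right, Finset.mul_sum, Finset.mul_sum]
    refine Finset.sum_congr rfl fun q _ => ?_
    rw [ip_smul_right]
    simp only [hX]
    ring
  simp only [h1]
  have h2 : ∀ F : Fin d → Fin d → Fin d → Fin d → ℂ,
      ∑ l, ∑ b, ∑ p, ∑ q, F l b p q = ∑ p, ∑ q, ∑ l, ∑ b, F l b p q := by
    intro F
    calc ∑ l, ∑ b, ∑ p, ∑ q, F l b p q = ∑ l, ∑ p, ∑ b, ∑ q, F l b p q :=
          Finset.sum_congr rfl fun l _ => Finset.sum_comm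
      _ = ∑ p, ∑ l, ∑ b, ∑ q, F l b p q := Finset.sum_comm
      _ = ∑ p, ∑ l, ∑ q, ∑ b, F l b p q :=
          Finset.sum_congr rfl fun p _ => Finset.sum_congr rfl fun l _ => Finset.sum_comm
      _ = _ := Finset.sum_congr rfl fun p _ => Finset.sum_comm
  rw [h2]
  have h3 : ∀ p q, ∑ l, ∑ b, U p l * τ l b * conj (U q b) * X p q
      = (if p = q then (η p : ℂ) else 0) * X p q := by
    intro p q
    have h4 : (U * τ * Uᴴ) p q = ∑ l, ∑ b, U p l * τ l b * conj (U q b) := by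
      rw [Matrix.mul_apply]
      simp only [Matrix.mul_apply, Finset.sum_mul, Matrix.conjTranspose_apply]
      exact Finset.sum_comm
    rw [hD, Matrix.diagonal_apply] at h4
    rw [h4, Finset.sum_mul]
    exact Finset.sum_congr rfl fun l _ => (Finset.sum_mul _ _ _).symm
  simp only [h3]
  refine Finset.sum_congr rfl fun p _ => ?_
  rw [Finset.sum_eq_single p]
  · rw [if_pos rfl]
  · intro q _ hq
    rw [if_neg hq.symm, zero_mul]
  · simp

theorem ip_eps_self (p : Fin d) (x : FI d → ℂ) :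
    ip (eps p *ᵥ x) (eps p *ᵥ x) = ∑ I, (if p ∈ I then 0 else ((‖x I‖ ^ 2 : ℝ) : ℂ)) := by
  have h1 : ip (eps p *ᵥ x) (eps p *ᵥ x) = ip (iot p *ᵥ (eps p *ᵥ x)) x := by
    rw [← eps_conjTranspose]
    exact (ip_conjTranspose _ _ _).symm
  have h2 : iot p *ᵥ (eps p *ᵥ x) = x - (eps p * iot p) *ᵥ x := by
    rw [Matrix.mulVec_mulVec, eq_sub_of_add_eq (car p p), if_pos rfl, Matrix.sub_mulVec,
      Matrix.one_mulVec]
  rw [h1, h2]
  unfold ip
  refine Finset.sum_congr rfl fun I _ => ?_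
  rw [Pi.sub_apply, eps_iot_mulVec]
  split_ifs with h
  · rw [sub_self, zero_mul]
  · rw [sub_zero, Complex.mul_conj, Complex.normSq_eq_norm_sq]

/-- diagonal form of `(Q_τ u, u)` -/
theorem qfw_self (hUT : U * T = 1) (hTU : T * U = 1) (hw : w = T * Tᴴ)
    (hτ : τ = T * Matrix.diagonal (fun k => ((η k : ℝ) : ℂ)) * Tᴴ) (u : FI d → ℂ) :
    (qfw w τ u u).re = ∑ I, (∑ p ∈ univ.filter (fun p => p ∉ I), η p) * ‖(lam U *ᵥ u) I‖ ^ 2 := by
  rw [qfw_eq hUT hTU hw hτ]
  simp only [ip_eps_self]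
  rw [Complex.re_sum]
  have h1 : ∀ p, ((η p : ℂ) * ∑ I, (if p ∈ I then 0 else ((‖(lam U *ᵥ u) I‖ ^ 2 : ℝ) : ℂ))).re
      = ∑ I, (if p ∈ I then 0 else η p * ‖(lam U *ᵥ u) I‖ ^ 2) := by
    intro p
    rw [Complex.re_ofReal_mul, Complex.re_sum, Finset.mul_sum]
    refine Finset.sum_congr rfl fun I _ => ?_
    split_ifs
    · simp
    · rw [Complex.ofReal_re]
  simp only [h1]
  rw [Finset.sum_comm]
  refine Finset.sum_congr rfl fun I _ => ?_
  rw [Finset.sum_mul, Finset.sum_filter]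
  refine Finset.sum_congr rfl fun p _ => ?_
  split_ifs <;> simp_all

theorem nsw_eq (hUT : U * T = 1) (hTU : T * U = 1) (hw : w = T * Tᴴ) (u : FI d → ℂ) :
    nsw w u = nn (lam U *ᵥ u) := by
  rw [nsw, ipw_eq hUT hTU hw, ip_self, Complex.ofReal_re]

end frame

/-! ### counting -/

/-- bound for the number of `p`-subsets of `Fin d` which contain a given set of `q` elements -/
def cnt (d q p : ℕ) : ℕ := if q ≤ p then (d - q).choose (p - q) else 0

theorem card_super_le (H : Finset (Fin d)) (p : ℕ) :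
    (univ.filter fun I : Finset (Fin d) => I.card = p ∧ H ⊆ I).card ≤ cnt d H.card p := by
  unfold cnt
  split_ifs with h
  · have h1 : (Finset.powersetCard (p - H.card) Hᶜ).card = (d - H.card).choose (p - H.card) := by
      rw [Finset.card_powersetCard, Finset.card_compl, Fintype.card_fin]
    rw [← h1]
    refine Finset.card_le_card_of_injOn (fun I => I \ H) (fun I hI => ?_) ?_
    · have hI' := (Finset.mem_filter.1 (Finset.mem_coe.1 hI)).2
      refine Finset.mem_coe.2 (Finset.mem_powersetCard.2 ⟨fun x hx => ?_, ?_⟩)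
      · exact Finset.mem_compl.2 (Finset.mem_sdiff.1 hx).2
      · rw [Finset.card_sdiff_of_subset hI'.2, hI'.1]
    · intro I hI I' hI' heq
      have h2 := (Finset.mem_filter.1 (Finset.mem_coe.1 hI)).2.2
      have h3 := (Finset.mem_filter.1 (Finset.mem_coe.1 hI')).2.2
      rw [← Finset.sdiff_union_of_subset h2, ← Finset.sdiff_union_of_subset h3]
      simp only at heq
      rw [heq]
  · refine le_of_eq (Finset.card_eq_zero.2 (Finset.filter_eq_empty_iff.2 ?_))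
    rintro I - ⟨h1, h2⟩
    have := Finset.card_le_card h2
    omega

/-- **CY-PW**, general form -/
theorem minor_le {w τ : Matrix (Fin d) (Fin d) ℂ} (hw : w.PosDef) (hτ : τ.PosSemidef) {k : ℕ}
    (hk : k < d) : ∃ l : Fin d → ℝ, Monotone l ∧ (∀ i, 0 ≤ l i) ∧
      (w⁻¹ * τ).det = ∏ i, (l i : ℂ) ∧ (w⁻¹ * τ).trace = ∑ i, (l i : ℂ) ∧
      (∀ t : ℂ, (1 + t • (w⁻¹ * τ)).det = ∏ i, (1 + t * (l i : ℂ))) ∧
      ∀ {p r : ℕ}, cnt d (d - k) p < r → ∀ a : Fin r → FI d → ℂ,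
        (∀ i I, I.card ≠ p → a i I = 0) → ∀ J : Fin r → FI d,
        l ⟨k, hk⟩ * ‖(Matrix.of fun i j => a i (J j)).det‖ ^ 2 ≤
          ((Nat.factorial r : ℝ) ^ 2 * r) * (∏ j, (lam w (J j) (J j)).re) *
            ∑ i, (qfw w τ (a i) (a i)).re * ∏ j ∈ univ.erase i, nsw w (a j) := by
  obtain ⟨T, U, η, hη, hUT, hTU, hwT, hτT⟩ :=
    Vale.Agent.P272.K.QN.H327.exists_frame hw hτ
  set σ := Tuple.sort η with hσ
  have hmono : Monotone (η ∘ σ) := Tuple.monotone_sort η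
  have h3 : Tᴴ * Uᴴ = 1 := by rw [← Matrix.conjTranspose_mul, hUT, Matrix.conjTranspose_one]
  have h3' : Uᴴ * Tᴴ = 1 := by rw [← Matrix.conjTranspose_mul, hTU, Matrix.conjTranspose_one]
  have hwτ : w⁻¹ * τ = Uᴴ * (Matrix.diagonal (fun k => ((η k : ℝ) : ℂ)) * Tᴴ) := by
    rw [inv_eq hUT hTU hwT, hτT]
    calc Uᴴ * U * (T * Matrix.diagonal (fun k => ((η k : ℝ) : ℂ)) * Tᴴ)
        = Uᴴ * ((U * T) * Matrix.diagonal (fun k => ((η k : ℝ) : ℂ)) * Tᴴ) := by noncomm_ring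
      _ = _ := by rw [hUT, Matrix.one_mul]
  refine ⟨η ∘ σ, hmono, fun i => hη _, ?_, ?_, fun t => ?_, ?_⟩
  · rw [hwτ, Matrix.det_mul, Matrix.det_mul, mul_left_comm, ← Matrix.det_mul, h3', Matrix.det_one,
      mul_one, Matrix.det_diagonal]
    exact (Equiv.prod_comp σ fun i => ((η i : ℝ) : ℂ)).symm
  · rw [hwτ, Matrix.trace_mul_comm, Matrix.mul_assoc, h3, Matrix.mul_one, Matrix.trace_diagonal]
    exact (Equiv.sum_comp σ fun i => ((η i : ℝ) : ℂ)).symm
  · have h9 : 1 + t • (w⁻¹ * τ) =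
        Uᴴ * (Matrix.diagonal (fun k => 1 + t * ((η k : ℝ) : ℂ)) * Tᴴ) := by
      have h10 : Matrix.diagonal (fun k => 1 + t * ((η k : ℝ) : ℂ)) =
          1 + t • Matrix.diagonal (fun k => ((η k : ℝ) : ℂ)) := by
        rw [← Matrix.diagonal_one, ← Matrix.diagonal_smul, Matrix.diagonal_add]
        rfl
      rw [hwτ, h10, Matrix.add_mul, Matrix.mul_add, Matrix.one_mul, h3', Matrix.smul_mul,
        Matrix.mul_smul]
    rw [h9, Matrix.det_mul, Matrix.det_mul, mul_left_comm, ← Matrix.det_mul, h3', Matrix.det_one,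
      mul_one, Matrix.det_diagonal]
    exact (Equiv.prod_comp σ fun i => 1 + t * ((η i : ℝ) : ℂ)).symm
  · intro p r hr a ha J
    set H : Finset (Fin d) := (univ.filter fun j : Fin d => k ≤ (j : ℕ)).map σ.toEmbedding with hH
    have hHc : H.card = d - k := by
      rw [hH, Finset.card_map]
      have : (univ.filter fun j : Fin d => k ≤ (j : ℕ)) = Finset.Ici ⟨k, hk⟩ := by
        ext j
        simp [Fin.le_def]
      rw [this, Fin.card_Ici]
    set μ : ℝ := (η ∘ σ) ⟨k, hk⟩ with hμ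
    have hμH : ∀ j ∈ H, μ ≤ η j := by
      intro j hj
      obtain ⟨i, hi, rfl⟩ := Finset.mem_map.1 hj
      exact hmono (Fin.le_def.2 (Finset.mem_filter.1 hi).2)
    set B := univ.filter fun I : Finset (Fin d) => I.card = p ∧ H ⊆ I with hB
    have hBr : B.card < r := lt_of_le_of_lt (card_super_le H p) (by rwa [hHc])
    set b : Fin r → FI d → ℂ := fun i => lam U *ᵥ a i with hb
    set m : Fin r → FI d → ℂ := fun j I => lam T (J j) I with hm
    have hTUl : lam T * lam U = 1 := by rw [← lam_mul, hTU, lam_one]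
    have hdet : (Matrix.of fun i j => a i (J j)) = Matrix.of fun i j => ∑ I, b i I * m j I := by
      ext i j
      simp only [Matrix.of_apply, hb, hm]
      have h4 : a i = lam T *ᵥ (lam U *ᵥ a i) := by
        rw [Matrix.mulVec_mulVec, hTUl, Matrix.one_mulVec]
      calc a i (J j) = (lam T *ᵥ (lam U *ᵥ a i)) (J j) := by rw [← h4]
        _ = ∑ I, lam T (J j) I * (lam U *ᵥ a i) I := rfl
        _ = _ := Finset.sum_congr rfl fun I _ => mul_comm _ _
    have hnm : ∀ j, nn (m j) = (lam w (J j) (J j)).re := by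
      intro j
      rw [hwT, lam_mul, lam_conjTranspose, Matrix.mul_apply, Complex.re_sum]
      refine Finset.sum_congr rfl fun I _ => ?_
      rw [Matrix.conjTranspose_apply, ← starRingEnd_apply, Complex.mul_conj,
        Complex.normSq_eq_norm_sq, Complex.ofReal_re]
    have hbz : ∀ i I, I.card ≠ p → b i I = 0 := by
      intro i I hI
      simp only [hb, Matrix.mulVec, dotProduct]
      refine Finset.sum_eq_zero fun K _ => ?_
      by_cases hK : K.card = p
      · rw [lam_apply_of_card_ne U (by rw [hK]; exact hI), zero_mul]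
      · rw [ha i K hK, mul_zero]
    have hoff : ∀ i, μ * nn (off B (b i)) ≤ (qfw w τ (a i) (a i)).re := by
      intro i
      rw [qfw_self hUT hTU hwT hτT, nn, Finset.mul_sum]
      refine Finset.sum_le_sum fun I _ => ?_
      have hs : 0 ≤ ∑ p ∈ univ.filter (fun p => p ∉ I), η p := Finset.sum_nonneg fun _ _ => hη _
      by_cases hIB : I ∈ B
      · simp only [off, hIB, if_true, norm_zero]
        have : 0 ≤ (∑ p ∈ univ.filter (fun p => p ∉ I), η p) * ‖(lam U *ᵥ a i) I‖ ^ 2 :=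
          mul_nonneg hs (by positivity)
        simpa using this
      · simp only [off, hIB, if_false]
        by_cases hIp : I.card = p
        · have h5 : ¬ H ⊆ I := fun h => hIB (Finset.mem_filter.2 ⟨mem_univ _, hIp, h⟩)
          obtain ⟨j, hjH, hjI⟩ := Finset.not_subset.1 h5
          have h6 : μ ≤ ∑ p ∈ univ.filter (fun p => p ∉ I), η p :=
            (hμH j hjH).trans (Finset.single_le_sum (f := η) (fun i _ => hη i)
              (Finset.mem_filter.2 ⟨mem_univ _, hjI⟩))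
          exact mul_le_mul_of_nonneg_right h6 (by positivity)
        · rw [hbz i I hIp]
          have h7 : (lam U *ᵥ a i) I = 0 := hbz i I hIp
          rw [h7]
          simp
    have hμ0 : 0 ≤ μ := hη _
    have hmain := det_bound B hBr b m
    have hPM : 0 ≤ ∏ k, nn (m k) := Finset.prod_nonneg fun _ _ => nn_nonneg _
    rw [hdet]
    simp only [← hnm]
    calc μ * ‖(Matrix.of fun i j => ∑ I, b i I * m j I).det‖ ^ 2
        ≤ μ * (((Nat.factorial r : ℝ) ^ 2 * r) * (∏ k, nn (m k)) *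
        ∑ i, nn (off B (b i)) * ∏ j ∈ univ.erase i, nn (b j)) :=
          mul_le_mul_of_nonneg_left hmain hμ0
      _ = ((Nat.factorial r : ℝ) ^ 2 * r) * (∏ k, nn (m k)) *
        ∑ i, (μ * nn (off B (b i))) * ∏ j ∈ univ.erase i, nn (b j) := by
          rw [Finset.mul_sum, Finset.mul_sum, Finset.mul_sum]
          exact Finset.sum_congr rfl fun i _ => by ring
      _ ≤ _ := by
          refine mul_le_mul_of_nonneg_left (Finset.sum_le_sum fun i _ => ?_)
            (mul_nonneg (by positivity) hPM)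
          have h8 : ∏ j ∈ univ.erase i, nn (b j) = ∏ j ∈ univ.erase i, nsw w (a j) :=
            Finset.prod_congr rfl fun j _ => (nsw_eq hUT hTU hwT _).symm
          rw [h8]
          refine mul_le_mul_of_nonneg_right (hoff i) (Finset.prod_nonneg fun j _ => ?_)
          rw [nsw_eq hUT hTU hwT]
          exact nn_nonneg _

/-- product bound -/
theorem prod_le_pow {l : Fin d → ℝ} (hl : Monotone l) (h0 : ∀ i, 0 ≤ l i) {k : ℕ} (hk : k < d) :
    ∏ i, l i ≤ l ⟨k, hk⟩ ^ (k + 1) * ∏ i, (1 + l i) := by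
  classical
  have h1 : ∏ i, l i = (∏ i ∈ univ.filter (fun i : Fin d => (i : ℕ) ≤ k), l i) *
      ∏ i ∈ univ.filter (fun i : Fin d => ¬ (i : ℕ) ≤ k), l i :=
    (Finset.prod_filter_mul_prod_filter_not _ _ _).symm
  have hcard : (univ.filter (fun i : Fin d => (i : ℕ) ≤ k)).card = k + 1 := by
    have : (univ.filter fun j : Fin d => (j : ℕ) ≤ k) = Finset.Iic ⟨k, hk⟩ := by
      ext j
      simp [Fin.le_def]
    rw [this, Fin.card_Iic]
  have h2 : ∏ i ∈ univ.filter (fun i : Fin d => (i : ℕ) ≤ k), l i ≤ l ⟨k, hk⟩ ^ (k + 1) := by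
    rw [← hcard, ← Finset.prod_const]
    exact Finset.prod_le_prod (fun i _ => h0 i) fun i hi =>
      hl (Fin.le_def.2 (Finset.mem_filter.1 hi).2)
  have h3 : ∏ i ∈ univ.filter (fun i : Fin d => ¬ (i : ℕ) ≤ k), l i ≤ ∏ i, (1 + l i) := by
    calc ∏ i ∈ univ.filter (fun i : Fin d => ¬ (i : ℕ) ≤ k), l i
        ≤ ∏ i ∈ univ.filter (fun i : Fin d => ¬ (i : ℕ) ≤ k), (1 + l i) :=
          Finset.prod_le_prod (fun i _ => h0 i) fun i _ => by linarith
      _ ≤ (∏ i ∈ univ.filter (fun i : Fin d => (i : ℕ) ≤ k), (1 + l i)) *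
          ∏ i ∈ univ.filter (fun i : Fin d => ¬ (i : ℕ) ≤ k), (1 + l i) := by
          refine le_mul_of_one_le_left (Finset.prod_nonneg fun i _ => by linarith [h0 i]) ?_
          calc (1 : ℝ) = ∏ i ∈ univ.filter (fun i : Fin d => (i : ℕ) ≤ k), (1 : ℝ) := by simp
            _ ≤ _ := Finset.prod_le_prod (fun _ _ => zero_le_one) fun i _ => by linarith [h0 i]
      _ = _ := Finset.prod_filter_mul_prod_filter_not _ _ _
  rw [h1]
  exact mul_le_mul h2 h3 (Finset.prod_nonneg fun i _ => h0 i) (pow_nonneg (h0 _) _)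

/-- **CY-PW**: with `m(τ) = (det τ / det (w + τ))^(1/(k+1))`. -/
theorem minor_le_det {w τ : Matrix (Fin d) (Fin d) ℂ} (hw : w.PosDef) (hτ : τ.PosSemidef) {k : ℕ}
    (hk : k < d) {p r : ℕ} (hr : cnt d (d - k) p < r) (a : Fin r → FI d → ℂ)
    (ha : ∀ i I, I.card ≠ p → a i I = 0) (J : Fin r → FI d) :
    (τ.det.re / (w + τ).det.re) ^ (1 / ((k : ℝ) + 1)) *
        ‖(Matrix.of fun i j => a i (J j)).det‖ ^ 2 ≤
      ((Nat.factorial r : ℝ) ^ 2 * r) * (∏ j, (lam w (J j) (J j)).re) *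
        ∑ i, (qfw w τ (a i) (a i)).re * ∏ j ∈ univ.erase i, nsw w (a j) := by
  obtain ⟨l, hmono, hl0, hdet, -, hdet1, H⟩ := minor_le hw hτ hk
  refine le_trans (mul_le_mul_of_nonneg_right ?_ (by positivity)) (H hr a ha J)
  have hwd := hw.det_pos
  have hwu : IsUnit w.det := isUnit_iff_ne_zero.2 hwd.ne'
  have e1 : τ.det = w.det * ∏ i, (l i : ℂ) := by
    rw [← hdet, ← Matrix.det_mul, ← Matrix.mul_assoc, Matrix.mul_nonsing_inv _ hwu, Matrix.one_mul]
  have e2 : (w + τ).det = w.det * ∏ i, (1 + (l i : ℂ)) := by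
    have := hdet1 1
    simp only [one_smul, one_mul] at this
    rw [← this, ← Matrix.det_mul, Matrix.mul_add, Matrix.mul_one, ← Matrix.mul_assoc,
      Matrix.mul_nonsing_inv _ hwu, Matrix.one_mul]
  have hw1 : 0 < w.det.re := (Complex.lt_def.1 hwd).1
  have hw2 : w.det.im = 0 := (Complex.lt_def.1 hwd).2.symm
  have e3 : τ.det.re = w.det.re * ∏ i, l i := by
    rw [e1, ← Complex.ofReal_prod, Complex.mul_re, Complex.ofReal_re, Complex.ofReal_im, mul_zero,
      sub_zero]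
  have e4 : (w + τ).det.re = w.det.re * ∏ i, (1 + l i) := by
    have : ∏ i, (1 + (l i : ℂ)) = ((∏ i, (1 + l i) : ℝ) : ℂ) := by
      push_cast
      rfl
    rw [e2, this, Complex.mul_re, Complex.ofReal_re, Complex.ofReal_im, mul_zero, sub_zero]
  have hP : 0 < ∏ i, (1 + l i) := Finset.prod_pos fun i _ => by linarith [hl0 i]
  have e5 : τ.det.re / (w + τ).det.re = (∏ i, l i) / ∏ i, (1 + l i) := by
    rw [e3, e4, mul_div_mul_left _ _ hw1.ne']
  have e6 : (∏ i, l i) / ∏ i, (1 + l i) ≤ l ⟨k, hk⟩ ^ (k + 1) := by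
    rw [div_le_iff₀ hP]
    exact prod_le_pow hmono hl0 hk
  have e7 : 0 ≤ (∏ i, l i) / ∏ i, (1 + l i) :=
    div_nonneg (Finset.prod_nonneg fun i _ => hl0 i) hP.le
  rw [e5]
  calc ((∏ i, l i) / ∏ i, (1 + l i)) ^ (1 / ((k : ℝ) + 1))
      ≤ (l ⟨k, hk⟩ ^ (k + 1)) ^ (1 / ((k : ℝ) + 1)) :=
        Real.rpow_le_rpow e7 e6 (by positivity)
    _ = l ⟨k, hk⟩ := by
        rw [← Real.rpow_natCast, ← Real.rpow_mul (hl0 _)]
        push_cast
        rw [mul_one_div_cancel (by positivity), Real.rpow_one]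

/-- **CY-PW**, `d = 4`, with `m(τ) = (det_w τ / tr_w τ)^(1/3)`. -/
theorem minor_le_four {w τ : Matrix (Fin 4) (Fin 4) ℂ} (hw : w.PosDef) (hτ : τ.PosSemidef)
    {p r : ℕ} (hr : cnt 4 2 p < r) (a : Fin r → FI 4 → ℂ)
    (ha : ∀ i I, I.card ≠ p → a i I = 0) (J : Fin r → FI 4) :
    ((w⁻¹ * τ).det.re / (w⁻¹ * τ).trace.re) ^ (1 / 3 : ℝ) *
        ‖(Matrix.of fun i j => a i (J j)).det‖ ^ 2 ≤
      ((Nat.factorial r : ℝ) ^ 2 * r) * (∏ j, (lam w (J j) (J j)).re) *
        ∑ i, (qfw w τ (a i) (a i)).re * ∏ j ∈ univ.erase i, nsw w (a j) := by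
  obtain ⟨l, hmono, hl0, hdet, htr, -, H⟩ := minor_le hw hτ (k := 2) (by norm_num)
  refine le_trans (mul_le_mul_of_nonneg_right ?_ (by positivity)) (H hr a ha J)
  have e1 : (w⁻¹ * τ).det.re = ∏ i, l i := by
    rw [hdet, ← Complex.ofReal_prod, Complex.ofReal_re]
  have e2 : (w⁻¹ * τ).trace.re = ∑ i, l i := by
    rw [htr, ← Complex.ofReal_sum, Complex.ofReal_re]
  rw [e1, e2]
  have h01 : l 0 ≤ l 2 := hmono (by decide)
  have h12 : l 1 ≤ l 2 := hmono (by decide)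
  have e6 : (∏ i, l i) / ∑ i, l i ≤ l 2 ^ 3 := by
    rcases (Finset.sum_nonneg fun i (_ : i ∈ (univ : Finset (Fin 4))) => hl0 i).eq_or_lt with h | h
    · rw [← h, div_zero]
      exact pow_nonneg (hl0 _) _
    · rw [div_le_iff₀ h, Fin.prod_univ_four, Fin.sum_univ_four]
      have a1 : l 0 * l 1 * l 2 ≤ l 2 ^ 3 := by
        have b1 : l 0 * l 1 ≤ l 2 * l 2 := mul_le_mul h01 h12 (hl0 _) (hl0 _)
        have b2 := mul_le_mul_of_nonneg_right b1 (hl0 2)
        calc l 0 * l 1 * l 2 ≤ l 2 * l 2 * l 2 := b2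
          _ = l 2 ^ 3 := by ring
      have a2 : l 3 ≤ l 0 + l 1 + l 2 + l 3 := by linarith [hl0 0, hl0 1, hl0 2]
      exact mul_le_mul a1 a2 (hl0 _) (pow_nonneg (hl0 _) _)
  have e7 : 0 ≤ (∏ i, l i) / ∑ i, l i :=
    div_nonneg (Finset.prod_nonneg fun i _ => hl0 i) (Finset.sum_nonneg fun i _ => hl0 i)
  calc ((∏ i, l i) / ∑ i, l i) ^ (1 / 3 : ℝ) ≤ (l 2 ^ 3) ^ (1 / 3 : ℝ) :=
        Real.rpow_le_rpow e7 e6 (by norm_num)
    _ = l 2 := by
        rw [← Real.rpow_natCast, ← Real.rpow_mul (hl0 _)]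
        norm_num

/-- the curvature term is nonnegative -/
theorem qfw_nonneg {w τ : Matrix (Fin d) (Fin d) ℂ} (hw : w.PosDef) (hτ : τ.PosSemidef)
    (u : FI d → ℂ) : 0 ≤ (qfw w τ u u).re := by
  obtain ⟨T, U, η, hη, hUT, hTU, hwT, hτT⟩ :=
    Vale.Agent.P272.K.QN.H327.exists_frame hw hτ
  rw [qfw_self hUT hTU hwT hτT]
  exact Finset.sum_nonneg fun I _ => mul_nonneg (Finset.sum_nonneg fun _ _ => hη _) (by positivity)

/-- `(Q_w u, u) = (d - p) |u|²` in degree `p` -/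
theorem qfw_same {w : Matrix (Fin d) (Fin d) ℂ} (hw : w.PosDef) {p : ℕ} {u : FI d → ℂ}
    (hu : ∀ I, I.card ≠ p → u I = 0) : (qfw w w u u).re = ((d - p : ℕ) : ℝ) * nsw w u := by
  obtain ⟨T, U, η, hη, hUT, hTU, hwT, hτT⟩ :=
    Vale.Agent.P272.K.QN.H327.exists_frame hw hw.posSemidef
  have hD : w = T * Matrix.diagonal (fun k : Fin d => (((fun _ => 1 : Fin d → ℝ) k : ℝ) : ℂ)) * Tᴴ := by
    have : Matrix.diagonal (fun k : Fin d => (((fun _ => 1 : Fin d → ℝ) k : ℝ) : ℂ)) = 1 := by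
      simp
    rw [this, Matrix.mul_one]
    exact hwT
  rw [qfw_self hUT hTU hwT hD, nsw_eq hUT hTU hwT, nn, Finset.mul_sum]
  refine Finset.sum_congr rfl fun I _ => ?_
  by_cases hI : I.card = p
  · congr 1
    rw [Finset.sum_const, nsmul_eq_mul, mul_one]
    have : (univ.filter fun q => q ∉ I) = Iᶜ := by
      ext q
      simp
    rw [this, Finset.card_compl, Fintype.card_fin, hI]
  · have h0 : (lam U *ᵥ u) I = 0 := by
      simp only [Matrix.mulVec, dotProduct]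
      refine Finset.sum_eq_zero fun K _ => ?_
      by_cases hK : K.card = p
      · rw [lam_apply_of_card_ne U (by rw [hK]; exact hI), zero_mul]
      · rw [hu K hK, mul_zero]
    rw [h0]
    simp

end Vale.Agent.P301.H85
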