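import Vale.Agent.P299.H996.IX.Pos
import Vale.Agent.P299.H954.IX.Loc
import Vale.Agent.P272.K.INT.Poly

/-!
# P301, package BEAU-J: the density of a form depends polynomially on the metric
-/

open scoped Manifold ContDiff ComplexOrder Topology Matrix
open Vale.Agent.P272.K Vale.Agent.P272.K.C2 Vale.Agent.P299.IX Vale.Agent.P299.IX.Fock

noncomputable section

namespace Vale.Agent.P301.H85

variable {n : ℕ}

/-- `⟨u, v⟩_A det A` -/
def hA (A : Matrix (Fin n) (Fin n) ℂ) (u v : FI n → ℂ) : ℂ := A.det * pr (lam A⁻¹ *ᵥ u) v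

/-- the operator `Q_H` for the metric `A` -/
def QA (H A : Matrix (Fin n) (Fin n) ℂ) (u : FI n → ℂ) : FI n → ℂ :=
  ∑ l, ∑ b, H l b • ((∑ m, A⁻¹ b m • iot m) *ᵥ (eps l *ᵥ u))

theorem QA_eq (H A : Matrix (Fin n) (Fin n) ℂ) (u : FI n → ℂ) :
    QA H A u = (H * A⁻¹).trace • u - dlam (H * A⁻¹) *ᵥ u := by
  have h1 : ∀ l, ∑ b, H l b • ((∑ m, A⁻¹ b m • iot m) *ᵥ (eps l *ᵥ u)) =
      ∑ m, (H * A⁻¹) l m • (iot m *ᵥ (eps l *ᵥ u)) := by
    intro l
    simp only [Matrix.sum_mulVec, Matrix.smul_mulVec, Finset.smul_sum, smul_smul]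
    rw [Finset.sum_comm]
    refine Finset.sum_congr rfl fun m _ => ?_
    rw [← Finset.sum_smul, Matrix.mul_apply]
  have h2 : ∀ l m : Fin n, iot m *ᵥ (eps l *ᵥ u) =
      (if m = l then u else 0) - (eps l * iot m) *ᵥ u := by
    intro l m
    have := congrArg (· *ᵥ u) (car m l)
    simp only [Matrix.add_mulVec] at this
    rw [Matrix.mulVec_mulVec, eq_sub_iff_add_eq, this]
    split_ifs <;> simp
  unfold QA
  simp only [h1, h2, smul_sub, Finset.sum_sub_distrib]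
  congr 1
  · simp only [smul_ite, smul_zero]
    simp [Matrix.trace, Finset.sum_smul]
  · unfold dlam
    simp only [Matrix.sum_mulVec, Matrix.smul_mulVec]

theorem lam_diagonal_mulVec (d : Fin n → ℂ) (a : FI n → ℂ) (I : FI n) :
    (lam (Matrix.diagonal d) *ᵥ a) I = (∏ i ∈ I, d i) * a I := by
  have h : lam (Matrix.diagonal d) = Matrix.diagonal fun I => ∏ i ∈ I, d i := by
    refine ext_ev fun I => ?_
    rw [lam_diagonal_ev]
    ext K
    rw [mulVec_ev, Matrix.diagonal_apply, Pi.smul_apply, smul_eq_mul]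
    by_cases hK : K = I
    · subst hK; simp [ev]
    · rw [if_neg hK]; simp [ev, hK]
  rw [h, Matrix.mulVec_diagonal]

/-- polynomials of bounded degree -/
theorem isPolyN_eval {m : ℕ} {p : Polynomial ℝ} (h : p.natDegree ≤ m) :
    INT.IsPolyN m fun t => p.eval t :=
  ⟨p.coeff, fun t => Polynomial.eval_eq_sum_range' (Nat.lt_succ_of_le h) t⟩

/-- the polynomial -/
def pol (D : Fin n → ℝ) (c : FI n → ℝ) : Polynomial ℝ :=
  ∑ I, Polynomial.C (c I) * ∏ i ∈ Iᶜ, (1 + Polynomial.C (D i) * Polynomial.X)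

theorem pol_eval (D : Fin n → ℝ) (c : FI n → ℝ) (t : ℝ) :
    (pol D c).eval t = ∑ I, c I * ∏ i ∈ Iᶜ, (1 + t * D i) := by
  unfold pol
  rw [Polynomial.eval_finsetSum]
  refine Finset.sum_congr rfl fun I _ => ?_
  rw [Polynomial.eval_mul, Polynomial.eval_C, Polynomial.eval_prod]
  congr 1
  refine Finset.prod_congr rfl fun i _ => ?_
  rw [Polynomial.eval_add, Polynomial.eval_one, Polynomial.eval_mul, Polynomial.eval_C,
    Polynomial.eval_X, mul_comm]

theorem pol_natDegree (D : Fin n → ℝ) (c : FI n → ℝ) : (pol D c).natDegree ≤ n := by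
  unfold pol
  refine Polynomial.natDegree_sum_le_of_forall_le _ _ fun I _ => ?_
  refine (Polynomial.natDegree_C_mul_le _ _).trans ?_
  refine (Polynomial.natDegree_prod_le _ _).trans ?_
  have h1 : ∀ i ∈ (Iᶜ : Finset (Fin n)),
      ((1 : Polynomial ℝ) + Polynomial.C (D i) * Polynomial.X).natDegree ≤ 1 := by
    intro i _
    refine (Polynomial.natDegree_add_le _ _).trans ?_
    rw [Polynomial.natDegree_one]
    exact max_le (by norm_num)
      ((Polynomial.natDegree_C_mul_le _ _).trans Polynomial.natDegree_X_le)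
  refine (Finset.sum_le_card_nsmul _ _ 1 h1).trans ?_
  rw [smul_eq_mul, mul_one]
  simpa using Finset.card_le_univ (Iᶜ : Finset (Fin n))

theorem pol_deriv (D : Fin n → ℝ) (c : FI n → ℝ) {t : ℝ} (ht : ∀ i, 1 + t * D i ≠ 0) :
    deriv (fun t => (pol D c).eval t) t =
      ∑ I, c I * ((∏ i ∈ Iᶜ, (1 + t * D i)) * ∑ i ∈ Iᶜ, D i / (1 + t * D i)) := by
  have h0 : (fun t => (pol D c).eval t) = fun t => ∑ I, c I * ∏ i ∈ Iᶜ, (1 + t * D i) :=
    funext fun t => pol_eval D c t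
  rw [h0]
  refine HasDerivAt.deriv ?_
  refine HasDerivAt.fun_sum fun I _ => HasDerivAt.const_mul _ ?_
  have h1 : ∀ i ∈ (Iᶜ : Finset (Fin n)), HasDerivAt (fun t : ℝ => 1 + t * D i) (D i) t := by
    intro i _
    simpa using ((hasDerivAt_id t).mul_const (D i)).const_add 1
  have h2 := HasDerivAt.fun_finsetProd h1
  refine h2.congr_deriv ?_
  rw [Finset.mul_sum]
  refine Finset.sum_congr rfl fun i hi => ?_
  rw [smul_eq_mul, ← Finset.mul_prod_erase _ _ hi]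
  field_simp [ht i]

/-- the density of a form along a line of metrics -/
theorem exists_poly {A H : Matrix (Fin n) (Fin n) ℂ} (hpos : A.PosDef) (hH : H.IsHermitian)
    (u : FI n → ℂ) {m : ℕ} (hm : n ≤ m) : ∃ f : ℝ → ℝ, INT.IsPolyN m f ∧ ∀ t : ℝ, (A + (t : ℂ) • H).PosDef →
      (hA (A + (t : ℂ) • H) u u).re = f t ∧
      (hA (A + (t : ℂ) • H) (QA H (A + (t : ℂ) • H) u) u).re = deriv f t := by
  have hAu : IsUnit A.det := (Matrix.isUnit_iff_isUnit_det A).1 hpos.isUnit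
  obtain ⟨G, D, hG, hAG, hAD⟩ := P299.H996.IX.exists_diag A (H * A⁻¹) hpos (by
    rw [Matrix.mul_assoc, Matrix.nonsing_inv_mul _ hAu, Matrix.mul_one, Matrix.conjTranspose_mul,
      hH.eq, Matrix.conjTranspose_nonsing_inv, hpos.isHermitian.eq, ← Matrix.mul_assoc,
      Matrix.mul_nonsing_inv _ hAu, Matrix.one_mul])
  have hGs : IsUnit (Gᴴ).det := by rw [Matrix.det_conjTranspose]; exact hG.star
  have hHG : H = G * Matrix.diagonal (fun q => (D q : ℂ)) * Gᴴ := by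
    calc H = H * A⁻¹ * A := by
          rw [Matrix.mul_assoc, Matrix.nonsing_inv_mul _ hAu, Matrix.mul_one]
      _ = G * Matrix.diagonal (fun q => (D q : ℂ)) * (G⁻¹ * G) * Gᴴ := by
          rw [hAD, hAG]; simp only [Matrix.mul_assoc]
      _ = _ := by rw [Matrix.nonsing_inv_mul _ hG, Matrix.mul_one]
  set a : FI n → ℂ := lam G⁻¹ *ᵥ u with ha
  refine ⟨fun t => (pol D fun I => ‖G.det‖ ^ 2 * ‖a I‖ ^ 2).eval t,
    isPolyN_eval ((pol_natDegree _ _).trans hm), fun t ht => ?_⟩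
  have hAt : A + (t : ℂ) • H = G * Matrix.diagonal (fun q => ((1 + t * D q : ℝ) : ℂ)) * Gᴴ := by
    have h1 : Matrix.diagonal (fun q => ((1 + t * D q : ℝ) : ℂ)) =
        1 + (t : ℂ) • Matrix.diagonal (fun q => (D q : ℂ)) := by
      rw [← Matrix.diagonal_one, ← Matrix.diagonal_smul, Matrix.diagonal_add]
      congr 1
      funext q
      simp
    rw [h1, hAG]
    conv_lhs => rw [hHG]
    rw [Matrix.mul_add, Matrix.add_mul, Matrix.mul_one, Matrix.mul_smul, Matrix.smul_mul]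
  have hdet : (A + (t : ℂ) • H).det = ((‖G.det‖ ^ 2 * ∏ i, (1 + t * D i) : ℝ) : ℂ) := by
    rw [hAt, Matrix.det_mul, Matrix.det_mul, Matrix.det_diagonal, Matrix.det_conjTranspose,
      Complex.ofReal_mul, Complex.ofReal_prod, ← Complex.normSq_eq_norm_sq, ← Complex.mul_conj]
    show _ * _ * (starRingEnd ℂ) G.det = _
    ring
  have hne : ∀ i, 1 + t * D i ≠ 0 := by
    intro i hi
    have h1 : (A + (t : ℂ) • H).det ≠ 0 := ht.det_pos.ne'
    rw [hdet, Finset.prod_eq_zero (Finset.mem_univ i) hi, mul_zero] at h1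
    exact h1 (by simp)
  have hinv : (A + (t : ℂ) • H)⁻¹ =
      (G⁻¹)ᴴ * Matrix.diagonal (fun q => (((1 + t * D q)⁻¹ : ℝ) : ℂ)) * G⁻¹ := by
    apply Matrix.inv_eq_right_inv
    rw [hAt, Matrix.conjTranspose_nonsing_inv]
    have h1 : Gᴴ * (Gᴴ)⁻¹ = 1 := Matrix.mul_nonsing_inv _ hGs
    have h2 : Matrix.diagonal (fun q => ((1 + t * D q : ℝ) : ℂ)) *
        Matrix.diagonal (fun q => (((1 + t * D q)⁻¹ : ℝ) : ℂ)) = 1 := by
      rw [Matrix.diagonal_mul_diagonal, ← Matrix.diagonal_one]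
      congr 1
      funext q
      rw [← Complex.ofReal_mul, mul_inv_cancel₀ (hne q), Complex.ofReal_one]
    calc G * Matrix.diagonal (fun q => ((1 + t * D q : ℝ) : ℂ)) * Gᴴ *
          ((Gᴴ)⁻¹ * Matrix.diagonal (fun q => (((1 + t * D q)⁻¹ : ℝ) : ℂ)) * G⁻¹)
        = G * (Matrix.diagonal (fun q => ((1 + t * D q : ℝ) : ℂ)) * (Gᴴ * (Gᴴ)⁻¹) *
          Matrix.diagonal (fun q => (((1 + t * D q)⁻¹ : ℝ) : ℂ))) * G⁻¹ := by
          simp only [Matrix.mul_assoc]
      _ = 1 := by rw [h1, Matrix.mul_one, h2, Matrix.mul_one, Matrix.mul_nonsing_inv _ hG]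
  have hpr : ∀ v : FI n → ℂ, pr (lam (A + (t : ℂ) • H)⁻¹ *ᵥ v) u =
      ∑ I, ((∏ i ∈ I, (((1 + t * D i)⁻¹ : ℝ) : ℂ)) * (lam G⁻¹ *ᵥ v) I) *
        (starRingEnd ℂ) (a I) := by
    intro v
    rw [hinv, lam_mul, lam_mul, lam_conjTranspose, Matrix.mul_assoc, ← Matrix.mulVec_mulVec,
      ← Matrix.mulVec_mulVec, ← pr_mulVec_right, pr]
    refine Finset.sum_congr rfl fun I _ => ?_
    rw [lam_diagonal_mulVec]
  have hprod : ∀ I : FI n, (∏ i, (1 + t * D i)) * ∏ i ∈ I, (1 + t * D i)⁻¹ =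
      ∏ i ∈ Iᶜ, (1 + t * D i) := by
    intro I
    rw [← Finset.prod_mul_prod_compl I, Finset.prod_inv_distrib, mul_comm (∏ i ∈ I, _), mul_assoc,
      mul_inv_cancel₀ (Finset.prod_ne_zero_iff.2 fun i _ => hne i), mul_one]
  have hQ : lam G⁻¹ *ᵥ QA H (A + (t : ℂ) • H) u =
      fun I => ((∑ i ∈ Iᶜ, D i / (1 + t * D i) : ℝ) : ℂ) * a I := by
    set E : Fin n → ℂ := fun i => ((D i / (1 + t * D i) : ℝ) : ℂ) with hE
    have h1 : H * (A + (t : ℂ) • H)⁻¹ = G * Matrix.diagonal E * G⁻¹ := by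
      rw [hinv, Matrix.conjTranspose_nonsing_inv]
      conv_lhs => rw [hHG]
      calc G * Matrix.diagonal (fun q => (D q : ℂ)) * Gᴴ *
            ((Gᴴ)⁻¹ * Matrix.diagonal (fun q => (((1 + t * D q)⁻¹ : ℝ) : ℂ)) * G⁻¹)
          = G * (Matrix.diagonal (fun q => (D q : ℂ)) * (Gᴴ * (Gᴴ)⁻¹) *
            Matrix.diagonal (fun q => (((1 + t * D q)⁻¹ : ℝ) : ℂ))) * G⁻¹ := by
            simp only [Matrix.mul_assoc]
        _ = _ := by
            rw [Matrix.mul_nonsing_inv _ hGs, Matrix.mul_one, Matrix.diagonal_mul_diagonal]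
            congr 3
            funext q
            show ((D q : ℝ) : ℂ) * (((1 + t * D q)⁻¹ : ℝ) : ℂ) = ((D q / (1 + t * D q) : ℝ) : ℂ)
            rw [← Complex.ofReal_mul, div_eq_mul_inv]
    have h2 : (H * (A + (t : ℂ) • H)⁻¹).trace = ∑ i, E i := by
      rw [h1, Matrix.trace_mul_cycle, Matrix.nonsing_inv_mul _ hG, Matrix.one_mul,
        Matrix.trace_diagonal]
    have h3 : lam G⁻¹ * dlam (H * (A + (t : ℂ) • H)⁻¹) = dlam (Matrix.diagonal E) * lam G⁻¹ := by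
      have hGi : IsUnit (G⁻¹).det := Matrix.isUnit_nonsing_inv_det _ hG
      refine P299.IX.Fock.lam_dlam ?_
      rw [h1, ← Matrix.mul_assoc, ← Matrix.mul_assoc, Matrix.nonsing_inv_mul _ hG, Matrix.one_mul]
    rw [QA_eq, Matrix.mulVec_sub, Matrix.mulVec_smul, Matrix.mulVec_mulVec, h3,
      ← Matrix.mulVec_mulVec, h2, ← ha]
    funext I
    rw [Pi.sub_apply, Pi.smul_apply, dlam_diagonal_mulVec, smul_eq_mul, ← sub_mul]
    congr 1
    rw [← Finset.sum_add_sum_compl I, add_sub_cancel_left, Complex.ofReal_sum]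
  constructor
  · show (hA (A + (t : ℂ) • H) u u).re = (pol D _).eval t
    rw [hA, hdet, hpr, pol_eval, ← ha, Complex.re_ofReal_mul, Complex.re_sum, Finset.mul_sum]
    refine Finset.sum_congr rfl fun I _ => ?_
    rw [← hprod I]
    have h1 : ((∏ i ∈ I, (((1 + t * D i)⁻¹ : ℝ) : ℂ)) * a I) * (starRingEnd ℂ) (a I) =
        (((∏ i ∈ I, (1 + t * D i)⁻¹) * ‖a I‖ ^ 2 : ℝ) : ℂ) := by
      rw [mul_assoc, Complex.mul_conj, Complex.normSq_eq_norm_sq, ← Complex.ofReal_prod,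
        ← Complex.ofReal_mul]
    rw [h1, Complex.ofReal_re]
    ring
  · rw [pol_deriv D _ hne, hA, hdet, hpr, hQ, Complex.re_ofReal_mul, Complex.re_sum,
      Finset.mul_sum]
    refine Finset.sum_congr rfl fun I _ => ?_
    rw [← hprod I]
    have h1 : ((∏ i ∈ I, (((1 + t * D i)⁻¹ : ℝ) : ℂ)) *
        (((∑ i ∈ Iᶜ, D i / (1 + t * D i) : ℝ) : ℂ) * a I)) * (starRingEnd ℂ) (a I) =
        (((∏ i ∈ I, (1 + t * D i)⁻¹) * ((∑ i ∈ Iᶜ, D i / (1 + t * D i)) * ‖a I‖ ^ 2) : ℝ) : ℂ) := by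
      rw [mul_assoc, mul_assoc, Complex.mul_conj, Complex.normSq_eq_norm_sq, ← Complex.ofReal_prod,
        ← Complex.ofReal_mul, ← Complex.ofReal_mul]
    rw [h1, Complex.ofReal_re]
    ring

end Vale.Agent.P301.H85
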